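import Vale.Agent.P108.Tor.Sinai

/-!
# P108: Sinai's conjecture on the standard map, in the Lyapunov form
-/

open MeasureTheory

namespace Vale.Agent.Results.P108.PositiveEntropy

open Vale.Agent.P108

theorem result :
    0 < volume {k : ℝ | 0 < ent k} ∧
    ∃ k₀ : ℝ, ∀ k : ℝ, k₀ ≤ |k| →
      99 / 100 * Real.log |k| ≤ ent k ∧ 0 < ent k ∧
        0 < volume {z | z ∈ Q ∧ 0 < lyap k z} := by
  obtain ⟨h1, h2⟩ := Tor.lyap_form Tor.sinai
  exact ⟨by rw [h2]; exact ENNReal.zero_lt_top, h1⟩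

end Vale.Agent.Results.P108.PositiveEntropy
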