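import Vale.Agent.P108.Tor.SinaiKS

/-!
# P108: Sinai's conjecture on the standard map of the torus, for the Kolmogorov-Sinai entropy
-/

open MeasureTheory

namespace Vale.Agent.Results.P108.Sinai

open Vale.Agent.P108 Vale.Agent.P108.Tor Vale.Agent.P109.KS

theorem result :
    0 < volume {k : ℝ |
      0 < ksEntropy (volume : Measure (UnitAddCircle × UnitAddCircle)) (stdMap k)} ∧
    ∃ k₀ : ℝ, ∀ k : ℝ, k₀ ≤ |k| →
      0 < ksEntropy (volume : Measure (UnitAddCircle × UnitAddCircle)) (stdMap k) ∧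
      ENNReal.ofReal (Real.log |k| / 400) ≤
        ksEntropy (volume : Measure (UnitAddCircle × UnitAddCircle)) (stdMap k) ∧
      99 / 100 * Real.log |k| ≤ ent k ∧
      0 < volume {z | z ∈ Q ∧ 0 < lyap k z} :=
  ks_form (by norm_num) sinai sinai_ks

end Vale.Agent.Results.P108.Sinai
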